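import Vale.Agent.P126.Bodies

/-!
P126: duality of metric entropy at constant scale with every exponent above one, in every dimension.
-/

namespace Vale.Agent.Results.P126.WeakDuality

open Vale.Agent.P126
open scoped Pointwise

theorem result :
    ∀ ε : ℝ, 0 < ε → ∃ a b : ℝ, 1 ≤ a ∧ 1 ≤ b ∧
      ∀ (n : ℕ) (K L : Set (EuclideanSpace ℝ (Fin n))), IsBody K → IsBody L →
        Real.log (covN K L) ≤ b * Real.log (covN (polarSet L) (a⁻¹ • polarSet K)) ^ (1 + ε) ∧
        Real.log (covN (polarSet L) (a • polarSet K)) ≤ b * Real.log (covN K L) ^ (1 + ε) := by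
  intro ε hε
  have ha : 0 < scaleConst ε := lt_of_lt_of_le one_pos (one_le_scaleConst ε)
  refine ⟨scaleConst ε, factorConst ε, one_le_scaleConst ε, one_le_factorConst hε.le,
    fun n K L hK hL => ⟨log_covN_le hK hL hε, ?_⟩⟩
  have h := log_covN_le hL.polar (hK.polar.smul ha) hε
  rwa [polarSet_smul _ ha.ne', polarSet_polarSet hK, polarSet_polarSet hL,
    covN_smul (inv_ne_zero ha.ne')] at h

end Vale.Agent.Results.P126.WeakDuality
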